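import Mathlib

namespace Vale.Agent.P016.FE.H851

open Finset

/-- Telescoping over the coordinates of an `r`-tuple. -/
theorem tuples {A : Finset ℕ} (P : Finset ℕ) (f : ℕ → ℕ → ℝ)
    (hf : ∀ p q, 0 ≤ f p q ∧ f p q ≤ 1) (wt : ℕ → ℝ) (hw : ∀ p, 0 ≤ wt p ∧ wt p ≤ 1)
    (B Δ : ℝ) (_hB : 0 ≤ B)
    (h : ∀ u : ℕ → ℝ, (∀ p, 0 ≤ u p ∧ u p ≤ 1) →
      ((A.filter (fun q => Δ < |∑ p ∈ P, u p * (f p q - wt p)|)).card : ℝ) ≤ B) (r : ℕ) :
    ∀ u : ℕ → ℝ, (∀ p, 0 ≤ u p ∧ u p ≤ 1) →
      (((Fintype.piFinset (fun _ : Fin r => A)).filter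
        (fun q => r * Δ < |∑ p ∈ P, u p * (∏ i, f p (q i) - wt p ^ r)|)).card : ℝ) ≤
        r * (A.card : ℝ) ^ (r - 1) * B := by
  induction r with
  | zero =>
    intro u hu
    simp
  | succ r ih =>
    intro u hu
    classical
    set Pi := Fintype.piFinset (fun _ : Fin r => A) with hPi
    set b1 : ℕ → (Fin r → ℕ) → Prop := fun a t =>
      r * Δ < |∑ p ∈ P, (u p * f p a) * (∏ i, f p (t i) - wt p ^ r)| with hb1
    set b2 : ℕ → Prop := fun a => Δ < |∑ p ∈ P, (u p * wt p ^ r) * (f p a - wt p)| with hb2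
    set bad := (Fintype.piFinset (fun _ : Fin (r + 1) => A)).filter
        (fun q => ((r + 1 : ℕ) : ℝ) * Δ < |∑ p ∈ P, u p * (∏ i, f p (q i) - wt p ^ (r + 1))|)
      with hbad
    have hcard : bad.card ≤ ((A ×ˢ Pi).filter (fun z => b1 z.1 z.2)).card +
        ((A ×ˢ Pi).filter (fun z => b2 z.1)).card := by
      refine le_trans ?_ (card_union_le _ _)
      refine card_le_card_of_injOn (fun q => (q 0, Fin.tail q)) ?_ ?_
      · intro q hq
        rw [mem_coe, hbad, mem_filter, Fintype.mem_piFinset] at hq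
        obtain ⟨hqA, hq⟩ := hq
        have hmem : (q 0, Fin.tail q) ∈ A ×ˢ Pi := by
          rw [mem_product]
          exact ⟨hqA 0, Fintype.mem_piFinset.2 fun i => hqA i.succ⟩
        rw [mem_coe, mem_union, mem_filter, mem_filter]
        by_contra hcon
        rw [not_or] at hcon
        have c1 : ¬ b1 (q 0) (Fin.tail q) := fun hh => hcon.1 ⟨hmem, hh⟩
        have c2 : ¬ b2 (q 0) := fun hh => hcon.2 ⟨hmem, hh⟩
        rw [hb1] at c1
        rw [hb2] at c2
        simp only [not_lt] at c1 c2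
        have hsum : ∑ p ∈ P, u p * (∏ i, f p (q i) - wt p ^ (r + 1)) =
            ∑ p ∈ P, (u p * f p (q 0)) * (∏ i, f p (Fin.tail q i) - wt p ^ r) +
            ∑ p ∈ P, (u p * wt p ^ r) * (f p (q 0) - wt p) := by
          rw [← sum_add_distrib]
          refine sum_congr rfl fun p _ => ?_
          rw [Fin.prod_univ_succ]
          simp only [Fin.tail]
          ring
        rw [hsum] at hq
        have h3 := abs_add_le (∑ p ∈ P, (u p * f p (q 0)) * (∏ i, f p (Fin.tail q i) - wt p ^ r))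
          (∑ p ∈ P, (u p * wt p ^ r) * (f p (q 0) - wt p))
        push_cast at hq
        linarith
      · intro q _ q' _ hqq
        have e1 : q 0 = q' 0 := congrArg Prod.fst hqq
        have e2 : Fin.tail q = Fin.tail q' := congrArg Prod.snd hqq
        rw [← Fin.cons_self_tail q, ← Fin.cons_self_tail q', e1, e2]
    have hc1 : (((A ×ˢ Pi).filter (fun z => b1 z.1 z.2)).card : ℝ) ≤
        A.card * (r * (A.card : ℝ) ^ (r - 1) * B) := by
      have : ((A ×ˢ Pi).filter (fun z => b1 z.1 z.2)).card =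
          ∑ a ∈ A, (Pi.filter (fun t => b1 a t)).card := by
        rw [card_filter, sum_product]
        exact sum_congr rfl fun a _ => (card_filter _ _).symm
      have hle : (((∑ a ∈ A, (Pi.filter (fun t => b1 a t)).card : ℕ)) : ℝ) ≤
          A.card • (r * (A.card : ℝ) ^ (r - 1) * B) := by
        rw [Nat.cast_sum]
        refine sum_le_card_nsmul _ _ _ fun a _ => ?_
        exact ih (fun p => u p * f p a) fun p =>
          ⟨mul_nonneg (hu p).1 (hf p a).1, mul_le_one₀ (hu p).2 (hf p a).1 (hf p a).2⟩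
      have hn := nsmul_eq_mul A.card ((r : ℝ) * (A.card : ℝ) ^ (r - 1) * B)
      rw [this]
      linarith
    have hc2 : (((A ×ˢ Pi).filter (fun z => b2 z.1)).card : ℝ) ≤ B * (A.card : ℝ) ^ r := by
      have : (A ×ˢ Pi).filter (fun z => b2 z.1) = (A.filter b2) ×ˢ Pi := by
        ext z
        simp only [mem_filter, mem_product]
        tauto
      rw [this, card_product]
      push_cast
      have hPc : (Pi.card : ℝ) = (A.card : ℝ) ^ r := by
        rw [hPi, Fintype.card_piFinset_const]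
        push_cast
        rfl
      rw [hPc]
      refine mul_le_mul_of_nonneg_right ?_ (by positivity)
      exact h (fun p => u p * wt p ^ r) fun p =>
        ⟨mul_nonneg (hu p).1 (pow_nonneg (hw p).1 r),
          mul_le_one₀ (hu p).2 (pow_nonneg (hw p).1 r) (pow_le_one₀ (hw p).1 (hw p).2)⟩
    have hmul : (A.card : ℝ) * (r * (A.card : ℝ) ^ (r - 1) * B) = r * (A.card : ℝ) ^ r * B := by
      rcases r with _ | r
      · simp
      · simp only [Nat.add_sub_cancel]
        ring
    have h4 : (bad.card : ℝ) ≤ A.card * (r * (A.card : ℝ) ^ (r - 1) * B) + B * (A.card : ℝ) ^ r := by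
      have h5 : (bad.card : ℝ) ≤ (((A ×ˢ Pi).filter (fun z => b1 z.1 z.2)).card : ℝ) +
          (((A ×ˢ Pi).filter (fun z => b2 z.1)).card : ℝ) := by exact_mod_cast hcard
      linarith
    rw [hmul] at h4
    simp only [Nat.add_sub_cancel]
    push_cast
    linarith

end Vale.Agent.P016.FE.H851
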